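import Mathlib

/-!
# P262, milestone 2: closure of the sick side (section 7, D6)

`z, y, s, nn, o, m` are the level sums of a chain of ZERO labels below one OWN label
(level `l + 1 + j`), `Y` the unit of the OWN label, `ext` the outer rotations.
-/

set_option linter.all false

open Finset

namespace Vale.Agent.P262.H781

lemma sum_two_pow_le (n : ℕ) : ∑ j ∈ range n, (2 : ℝ) ^ j ≤ 2 ^ n := by
  induction n with
  | zero => simp
  | succ n ih => rw [sum_range_succ, pow_succ]; linarith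

/-- weights `2^j` absorb the sums over deeper levels (strict form) -/
lemma sum_deeper (a : ℕ → ℝ) (ha : ∀ j, 0 ≤ a j) (n : ℕ) :
    ∑ j ∈ range n, (2 : ℝ) ^ j * ∑ k ∈ Ico (j + 1) n, a k ≤ ∑ j ∈ range n, (2 : ℝ) ^ j * a j := by
  induction n with
  | zero => simp
  | succ n ih =>
    have h1 : ∑ j ∈ range (n + 1), (2 : ℝ) ^ j * ∑ k ∈ Ico (j + 1) (n + 1), a k
        = (∑ j ∈ range n, (2 : ℝ) ^ j * ∑ k ∈ Ico (j + 1) n, a k)
          + (∑ j ∈ range n, (2 : ℝ) ^ j) * a n := by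
      rw [sum_range_succ, sum_mul, ← sum_add_distrib]
      simp only [Ico_self, sum_empty, mul_zero, add_zero]
      refine sum_congr rfl fun j hj => ?_
      have hj' : j + 1 ≤ n := mem_range.mp hj
      rw [sum_Ico_succ_top hj']
      ring
    rw [h1, sum_range_succ (fun j => (2 : ℝ) ^ j * a j)]
    have h2 := mul_le_mul_of_nonneg_right (sum_two_pow_le n) (ha n)
    linarith

/-- weights `2^j` absorb the sums over deeper levels -/
lemma sum_deeper' (a : ℕ → ℝ) (ha : ∀ j, 0 ≤ a j) (n : ℕ) :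
    ∑ j ∈ range n, (2 : ℝ) ^ j * ∑ k ∈ Ico j n, a k ≤ 2 * ∑ j ∈ range n, (2 : ℝ) ^ j * a j := by
  have h1 : ∑ j ∈ range n, (2 : ℝ) ^ j * ∑ k ∈ Ico j n, a k
      = (∑ j ∈ range n, (2 : ℝ) ^ j * a j)
        + ∑ j ∈ range n, (2 : ℝ) ^ j * ∑ k ∈ Ico (j + 1) n, a k := by
    rw [← sum_add_distrib]
    refine sum_congr rfl fun j hj => ?_
    rw [sum_eq_sum_Ico_succ_bot (mem_range.mp hj)]
    ring
  have h2 := sum_deeper a ha n
  linarith

/-- the rotations of the levels above: factor `4^{-(j-k)}` against the weights `2^j` -/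
lemma sum_upper (a : ℕ → ℝ) (ha : ∀ j, 0 ≤ a j) (n : ℕ) :
    ∑ j ∈ range n, (2 : ℝ) ^ j * ∑ k ∈ range j, (1 / 4 : ℝ) ^ (j - k) * a k
      ≤ ∑ j ∈ range n, (2 : ℝ) ^ j * a j := by
  have key : ∀ n : ℕ, ∑ j ∈ range n, (2 : ℝ) ^ j * ∑ k ∈ range j, (1 / 4 : ℝ) ^ (j - k) * a k
      + 2 * 2 ^ n * ∑ k ∈ range n, (1 / 4 : ℝ) ^ (n - k) * a k
      ≤ ∑ j ∈ range n, (2 : ℝ) ^ j * a j := by
    intro n
    induction n with
    | zero => simp
    | succ n ih =>
      have h1 : ∑ k ∈ range (n + 1), (1 / 4 : ℝ) ^ (n + 1 - k) * a k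
          = 1 / 4 * (∑ k ∈ range n, (1 / 4 : ℝ) ^ (n - k) * a k + a n) := by
        rw [sum_range_succ, mul_add, mul_sum]
        congr 1
        · refine sum_congr rfl fun k hk => ?_
          have hk' : n + 1 - k = (n - k) + 1 := by
            have := mem_range.mp hk
            omega
          rw [hk', pow_succ]
          ring
        · have : n + 1 - n = 1 := by omega
          rw [this, pow_one]
      rw [h1, sum_range_succ (fun j => (2 : ℝ) ^ j * ∑ k ∈ range j, (1 / 4 : ℝ) ^ (j - k) * a k),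
        sum_range_succ (fun j => (2 : ℝ) ^ j * a j), pow_succ]
      linarith
  have h1 := key n
  have h2 : 0 ≤ 2 * (2 : ℝ) ^ n * ∑ k ∈ range n, (1 / 4 : ℝ) ^ (n - k) * a k := by
    refine mul_nonneg (by positivity) (sum_nonneg fun k _ => mul_nonneg (by positivity) (ha k))
  linarith

lemma sum_quarter_le (n : ℕ) : ∑ j ∈ range n, (2 : ℝ) ^ j * (1 / 4 : ℝ) ^ j ≤ 2 := by
  have h : ∀ n : ℕ, ∑ j ∈ range n, (2 : ℝ) ^ j * (1 / 4 : ℝ) ^ j = 2 - 2 * (1 / 2 : ℝ) ^ n := by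
    intro n
    induction n with
    | zero => simp
    | succ n ih =>
      rw [sum_range_succ, ih, ← mul_pow, pow_succ]
      norm_num
      ring
  rw [h n]
  have : (0 : ℝ) < (1 / 2 : ℝ) ^ n := by positivity
  linarith

/-- the algebra of the closure -/
lemma closure_alg {C c1 ε β B Z Yt S N O M : ℝ}
    (hC : 1 ≤ C) (hc1 : 0 < c1) (hε : 0 ≤ ε) (hεc : 80 * C ^ 3 * ε ≤ c1)
    (hβ : 0 ≤ β) (hβC : 8 * (C + 2) ^ 2 * β ≤ 1) (B0 : 0 ≤ B)
    (Z0 : 0 ≤ Z) (Yt0 : 0 ≤ Yt) (S0 : 0 ≤ S) (N0 : 0 ≤ N) (O0 : 0 ≤ O) (M0 : 0 ≤ M)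
    (i1 : c1 * Z ≤ C * (S + N + O + M)) (i2 : S ≤ C * (M + N + O))
    (i3 : c1 * Yt ≤ C * (S + N + O)) (i4 : N ≤ ε * Yt + 2 * ε * Z + β * (S + N + O))
    (i6 : O ≤ ε * Z + B) (i5 : M ≤ B + C * O + 2 * ε * Z) :
    S + N + O + M + c1 * (Yt + Z) ≤ 200 * C ^ 3 * B := by
  obtain ⟨Q, hQ⟩ : ∃ Q, Q = ε * Z + ε * Yt + B := ⟨_, rfl⟩
  have εZ : 0 ≤ ε * Z := mul_nonneg hε Z0
  have εYt : 0 ≤ ε * Yt := mul_nonneg hε Yt0
  have Q0 : 0 ≤ Q := by linarith
  have Cpos : 0 < C := by linarith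
  have O1 : O ≤ Q := by linarith
  have CQ : Q ≤ C * Q := le_mul_of_one_le_left Q0 hC
  have CO : C * O ≤ C * Q := mul_le_mul_of_nonneg_left O1 Cpos.le
  have M1 : M ≤ 3 * (C * Q) := by linarith
  have CCQ : C * Q ≤ C * (C * Q) := le_mul_of_one_le_left (by linarith) hC
  have S1 : S ≤ 4 * (C * (C * Q)) + C * N := by
    have a : C * (M + N + O) ≤ C * (3 * (C * Q) + N + Q) :=
      mul_le_mul_of_nonneg_left (by linarith) Cpos.le
    have b : C * (3 * (C * Q) + N + Q) = 3 * (C * (C * Q)) + C * N + C * Q := by ring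
    linarith
  have β1 : β ≤ 1 / 72 := by
    have : 0 ≤ ((C + 2) ^ 2 - 9) * β := mul_nonneg (by nlinarith) hβ
    linarith
  have β2 : β * C ≤ 1 / 24 := by
    have : 0 ≤ ((C + 2) ^ 2 - 3 * C) * β := mul_nonneg (by nlinarith) hβ
    linarith
  have β3 : β * (C * C) ≤ 1 / 8 := by
    have : 0 ≤ ((C + 2) ^ 2 - C * C) * β := mul_nonneg (by nlinarith) hβ
    linarith
  have N1 : N ≤ 4 * Q := by
    have b1 : β * S ≤ β * (4 * (C * (C * Q)) + C * N) := mul_le_mul_of_nonneg_left S1 hβ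
    have b2 : β * O ≤ β * Q := mul_le_mul_of_nonneg_left O1 hβ
    have b3 := mul_le_mul_of_nonneg_right β3 Q0
    have b4 := mul_le_mul_of_nonneg_right β2 N0
    have b5 := mul_le_mul_of_nonneg_right β1 Q0
    have b6 := mul_le_mul_of_nonneg_right β1 N0
    have b7 : β * (4 * (C * (C * Q)) + C * N) = 4 * (β * (C * C) * Q) + β * C * N := by ring
    have b8 : β * (S + N + O) = β * S + β * N + β * O := by ring
    linarith
  have CN : C * N ≤ 4 * (C * Q) := by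
    have := mul_le_mul_of_nonneg_left N1 Cpos.le
    linarith
  have S2 : S ≤ 8 * (C * (C * Q)) := by linarith
  have T : S + N + O + M ≤ 16 * (C * (C * Q)) := by linarith
  have i1' : c1 * Z ≤ 16 * (C * (C * (C * Q))) := by
    have := mul_le_mul_of_nonneg_left T Cpos.le
    linarith
  have i3' : c1 * Yt ≤ 16 * (C * (C * (C * Q))) := by
    have := mul_le_mul_of_nonneg_left (by linarith : S + N + O ≤ 16 * (C * (C * Q))) Cpos.le
    linarith
  have q1 : c1 * (Yt + Z) ≤ 32 * (C * (C * (C * Q))) := by linarith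
  have C3 : 0 < C ^ 3 := by positivity
  have e3 : C * (C * (C * Q)) = C ^ 3 * Q := by ring
  have q3 : ε * (Yt + Z) ≤ 2 / 5 * Q := by
    have a := mul_le_mul_of_nonneg_right hεc (by linarith : 0 ≤ Yt + Z)
    have b : C ^ 3 * (80 * (ε * (Yt + Z))) ≤ C ^ 3 * (32 * Q) := by
      have : C ^ 3 * (80 * (ε * (Yt + Z))) = 80 * C ^ 3 * ε * (Yt + Z) := by ring
      linarith
    have := le_of_mul_le_mul_left b C3
    linarith
  have q4 : Q ≤ 2 * B := by
    have : ε * (Yt + Z) = ε * Yt + ε * Z := by ring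
    linarith
  have q5 : C ^ 3 * Q ≤ 2 * (C ^ 3 * B) := by
    have := mul_le_mul_of_nonneg_left q4 C3.le
    linarith
  have q6 : C * (C * Q) ≤ C * (C * (C * Q)) :=
    le_mul_of_one_le_left (by positivity) hC
  linarith

/-- **closure of the chain sums** (section 7 of the skeleton, D6) -/
theorem chain_sum {n : ℕ} {C c1 ε β Y : ℝ} {z y s nn o m ext : ℕ → ℝ}
    (hC : 1 ≤ C) (hc1 : 0 < c1) (hc1' : c1 ≤ 1) (hε : 0 ≤ ε) (hεc : 80 * C ^ 3 * ε ≤ c1)
    (hβ : 0 ≤ β) (hβC : 8 * (C + 2) ^ 2 * β ≤ 1) (hY : 0 ≤ Y)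
    (hz : ∀ j, 0 ≤ z j) (hy : ∀ j, 0 ≤ y j) (hs : ∀ j, 0 ≤ s j) (hnn : ∀ j, 0 ≤ nn j)
    (ho : ∀ j, 0 ≤ o j) (hm : ∀ j, 0 ≤ m j) (hext : ∀ j, 0 ≤ ext j)
    (h1 : ∀ j < n, c1 * z j ≤ C * (s j + nn j + o j + m j))
    (h2 : ∀ j < n, s j ≤ C * (m j + nn j + o j))
    (h3 : ∀ j < n, c1 * y j ≤ C * (s j + nn j + o j))
    (h4 : ∀ j < n, nn j ≤ ε * y j + ε * ∑ k ∈ Ico j n, z k
      + β * ∑ k ∈ Ico (j + 1) n, (s k + nn k + o k))
    (h5 : 0 < n → m 0 ≤ ε * Y + C * o 0)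
    (h5' : ∀ j, j + 1 < n → m (j + 1) ≤ ε * z j)
    (h6 : ∀ j < n, o j ≤ ε * ∑ k ∈ range j, (1 / 4 : ℝ) ^ (j - k) * z k
      + ε * ((1 / 4 : ℝ) ^ j * Y) + ext j) :
    ∑ j ∈ range n, (2 : ℝ) ^ j * (s j + nn j + o j + m j)
      + c1 * ∑ j ∈ range n, (2 : ℝ) ^ j * (y j + z j)
      ≤ 200 * C ^ 3 * (2 * ε * Y + ∑ j ∈ range n, (2 : ℝ) ^ j * ext j) := by
  set Z := ∑ j ∈ range n, (2 : ℝ) ^ j * z j with hZ
  set Yt := ∑ j ∈ range n, (2 : ℝ) ^ j * y j with hYt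
  set S := ∑ j ∈ range n, (2 : ℝ) ^ j * s j with hS
  set N := ∑ j ∈ range n, (2 : ℝ) ^ j * nn j with hN
  set O := ∑ j ∈ range n, (2 : ℝ) ^ j * o j with hO
  set M := ∑ j ∈ range n, (2 : ℝ) ^ j * m j with hM
  set X := ∑ j ∈ range n, (2 : ℝ) ^ j * ext j with hX
  have w : ∀ j : ℕ, (0 : ℝ) ≤ 2 ^ j := fun j => by positivity
  have nonneg : ∀ a : ℕ → ℝ, (∀ j, 0 ≤ a j) → 0 ≤ ∑ j ∈ range n, (2 : ℝ) ^ j * a j :=
    fun a ha => sum_nonneg fun j _ => mul_nonneg (w j) (ha j)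
  have Z0 : 0 ≤ Z := nonneg z hz
  have Yt0 : 0 ≤ Yt := nonneg y hy
  have S0 : 0 ≤ S := nonneg s hs
  have N0 : 0 ≤ N := nonneg nn hnn
  have O0 : 0 ≤ O := nonneg o ho
  have M0 : 0 ≤ M := nonneg m hm
  have X0 : 0 ≤ X := nonneg ext hext
  have e1 : ∑ j ∈ range n, (2 : ℝ) ^ j * (s j + nn j + o j + m j) = S + N + O + M := by
    simp only [hS, hN, hO, hM, ← sum_add_distrib]
    exact sum_congr rfl fun j _ => by ring
  have e2 : ∑ j ∈ range n, (2 : ℝ) ^ j * (y j + z j) = Yt + Z := by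
    simp only [hYt, hZ, ← sum_add_distrib]
    exact sum_congr rfl fun j _ => by ring
  have e3 : ∑ j ∈ range n, (2 : ℝ) ^ j * (s j + nn j + o j) = S + N + O := by
    simp only [hS, hN, hO, ← sum_add_distrib]
    exact sum_congr rfl fun j _ => by ring
  -- the six inequalities summed
  have i1 : c1 * Z ≤ C * (S + N + O + M) := by
    rw [← e1, hZ, mul_sum, mul_sum]
    refine sum_le_sum fun j hj => ?_
    have := mul_le_mul_of_nonneg_left (h1 j (mem_range.mp hj)) (w j)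
    linarith
  have i2 : S ≤ C * (M + N + O) := by
    have : C * (M + N + O) = ∑ j ∈ range n, (2 : ℝ) ^ j * (C * (m j + nn j + o j)) := by
      simp only [hM, hN, hO, ← sum_add_distrib, mul_sum]
      exact sum_congr rfl fun j _ => by ring
    rw [this, hS]
    exact sum_le_sum fun j hj => mul_le_mul_of_nonneg_left (h2 j (mem_range.mp hj)) (w j)
  have i3 : c1 * Yt ≤ C * (S + N + O) := by
    rw [← e3, hYt, mul_sum, mul_sum]
    refine sum_le_sum fun j hj => ?_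
    have := mul_le_mul_of_nonneg_left (h3 j (mem_range.mp hj)) (w j)
    linarith
  have i4 : N ≤ ε * Yt + 2 * ε * Z + β * (S + N + O) := by
    have a1 : N ≤ ∑ j ∈ range n, (2 : ℝ) ^ j * (ε * y j + ε * ∑ k ∈ Ico j n, z k
        + β * ∑ k ∈ Ico (j + 1) n, (s k + nn k + o k)) :=
      sum_le_sum fun j hj => mul_le_mul_of_nonneg_left (h4 j (mem_range.mp hj)) (w j)
    have a2 : ∑ j ∈ range n, (2 : ℝ) ^ j * (ε * y j + ε * ∑ k ∈ Ico j n, z k
        + β * ∑ k ∈ Ico (j + 1) n, (s k + nn k + o k))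
        = ε * Yt + ε * (∑ j ∈ range n, (2 : ℝ) ^ j * ∑ k ∈ Ico j n, z k)
          + β * (∑ j ∈ range n, (2 : ℝ) ^ j * ∑ k ∈ Ico (j + 1) n, (s k + nn k + o k)) := by
      rw [hYt, mul_sum, mul_sum, mul_sum, ← sum_add_distrib, ← sum_add_distrib]
      exact sum_congr rfl fun j _ => by ring
    have a3 := mul_le_mul_of_nonneg_left (sum_deeper' z hz n) hε
    have a4 := mul_le_mul_of_nonneg_left (sum_deeper (fun k => s k + nn k + o k)
      (fun k => by have := hs k; have := hnn k; have := ho k; positivity) n) hβ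
    rw [e3] at a4
    linarith
  have i6 : O ≤ ε * Z + 2 * ε * Y + X := by
    have a1 : O ≤ ∑ j ∈ range n, (2 : ℝ) ^ j * (ε * ∑ k ∈ range j, (1 / 4 : ℝ) ^ (j - k) * z k
        + ε * ((1 / 4 : ℝ) ^ j * Y) + ext j) :=
      sum_le_sum fun j hj => mul_le_mul_of_nonneg_left (h6 j (mem_range.mp hj)) (w j)
    have a2 : ∑ j ∈ range n, (2 : ℝ) ^ j * (ε * ∑ k ∈ range j, (1 / 4 : ℝ) ^ (j - k) * z k
        + ε * ((1 / 4 : ℝ) ^ j * Y) + ext j)
        = ε * (∑ j ∈ range n, (2 : ℝ) ^ j * ∑ k ∈ range j, (1 / 4 : ℝ) ^ (j - k) * z k)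
          + ε * Y * (∑ j ∈ range n, (2 : ℝ) ^ j * (1 / 4 : ℝ) ^ j) + X := by
      rw [hX, mul_sum, mul_sum, ← sum_add_distrib, ← sum_add_distrib]
      exact sum_congr rfl fun j _ => by ring
    have a3 := mul_le_mul_of_nonneg_left (sum_upper z hz n) hε
    have a4 := mul_le_mul_of_nonneg_left (sum_quarter_le n) (mul_nonneg hε hY)
    linarith
  have i5 : M ≤ ε * Y + C * O + 2 * ε * Z := by
    rcases Nat.eq_zero_or_pos n with h0 | h0
    · subst h0
      have : M = 0 := by simp [hM]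
      rw [this]
      have : 0 ≤ ε * Y := mul_nonneg hε hY
      have : 0 ≤ C * O := mul_nonneg (by linarith) O0
      have : 0 ≤ 2 * ε * Z := by positivity
      linarith
    · obtain ⟨p, rfl⟩ : ∃ p, n = p + 1 := ⟨n - 1, by omega⟩
      have a1 : M = m 0 + ∑ j ∈ range p, (2 : ℝ) ^ (j + 1) * m (j + 1) := by
        rw [hM, sum_range_succ']
        simp
        ring
      have a2 : ∑ j ∈ range p, (2 : ℝ) ^ (j + 1) * m (j + 1)
          ≤ ∑ j ∈ range p, 2 * ε * ((2 : ℝ) ^ j * z j) := by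
        refine sum_le_sum fun j hj => ?_
        have := mul_le_mul_of_nonneg_left (h5' j (by have := mem_range.mp hj; omega)) (w (j + 1))
        calc (2 : ℝ) ^ (j + 1) * m (j + 1) ≤ 2 ^ (j + 1) * (ε * z j) := this
          _ = 2 * ε * ((2 : ℝ) ^ j * z j) := by rw [pow_succ]; ring
      rw [← mul_sum] at a2
      have a3 : ∑ j ∈ range p, (2 : ℝ) ^ j * z j ≤ Z := by
        rw [hZ, sum_range_succ]
        have := mul_nonneg (w p) (hz p)
        linarith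
      have a4 : o 0 ≤ O := by
        rw [hO, sum_range_succ']
        have : 0 ≤ ∑ k ∈ range p, (2 : ℝ) ^ (k + 1) * o (k + 1) :=
          sum_nonneg fun k _ => mul_nonneg (w _) (ho _)
        simpa using this
      have a5 := h5 h0
      have a6 := mul_le_mul_of_nonneg_left a3 (by positivity : 0 ≤ 2 * ε)
      have a7 := mul_le_mul_of_nonneg_left a4 (by linarith : 0 ≤ C)
      linarith
  -- pure algebra
  rw [e1, e2]
  have εY : 0 ≤ ε * Y := mul_nonneg hε hY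
  have := closure_alg (B := 2 * ε * Y + X) hC hc1 hε hεc hβ hβC (by linarith) Z0 Yt0 S0 N0 O0 M0
    i1 i2 i3 i4 (by linarith) (by linarith)
  linarith

end Vale.Agent.P262.H781
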